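import Vale.Agent.P347.Rec8

open Filter Vale.Agent.P347

theorem Vale.Agent.Results.P347.GammaZero.result :
    (∀ ε : ℝ, 0 < ε → ∀ᶠ d : ℕ in atTop, ∃ q : ℕ, (q : ℝ) ≤ (d : ℝ) ^ ε ∧ Achievable d q) ∧
    Filter.limsup (fun d : ℕ => Real.log (queryComplexity d) / Real.log d) atTop = 0 :=
  ⟨fun _ hε => achievable_rpow hε, tendsto_exponent.limsup_eq⟩
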